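import Vale.Agent.P159.H27.Cr1
import Vale.Agent.P159.H773.Skel

/-!
P159 / H27: the chain with the full relation of all windows below, and the slopes of the
two point function (lower bound with exponent `1/4 + 2 ε`, constant independent of the level).
-/

namespace Vale.Agent.P159.H27

open MeasureTheory Finset
open Vale.Agent.P159.H686
open Vale.Agent.P159.H552.Dx7 (kk nx)
open Vale.Agent.P159.H801 (itw itw_zero itw_succ)
open Vale.Agent.P159.H773 (Oth Fit)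

/-- base distance of the `j`-th level of the chain -/
def Rb (k w : ℕ → ℕ) (n0 j : ℕ) : ℕ := 2 ^ kk k (itw w n0 j)

lemma nx_itw (w : ℕ → ℕ) (n0 j : ℕ) : nx w (itw w n0 j) = itw w n0 (j + 1) := by
  rw [itw_succ]; rfl

lemma Rb_succ (k w : ℕ → ℕ) (n0 j : ℕ) :
    2 ^ kk k (nx w (itw w n0 j)) = Rb k w n0 (j + 1) := by
  rw [nx_itw]; rfl

lemma Rb_pos (k w : ℕ → ℕ) (n0 j : ℕ) : 0 < Rb k w n0 j := by unfold Rb; positivity

/-- the relation in all windows below `i` -/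
def BelR (L e a : ℕ → ℝ) (k w : ℕ → ℕ) (n0 : ℕ) (F : ℕ → ℝ) (i : ℕ) : Prop :=
  ∀ j < i, ∀ R : ℕ, Rb k w n0 j ≤ R → R ≤ Rb k w n0 (j + 1) →
    |L R - L (Rb k w n0 j) + a (itw w n0 j) / 2 * (e R - e (Rb k w n0 j))| ≤ F j

lemma BelR.mono {L e a : ℕ → ℝ} {k w : ℕ → ℕ} {n0 : ℕ} {F : ℕ → ℝ} {i i' : ℕ}
    (h : BelR L e a k w n0 F i) (hi : i' ≤ i) : BelR L e a k w n0 F i' :=
  fun j hj => h j (lt_of_lt_of_le hj hi)

section chain

variable {Ω Ω' X : ℕ → Type} [∀ i, MeasurableSpace (Ω i)] [∀ i, MeasurableSpace (Ω' i)]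
  [∀ i, MeasurableSpace (X i)] {ν : ∀ i, Measure (Ω i)} {ν' : ∀ i, Measure (Ω' i)}
  {Ψ : ∀ i, Ω i → ℝ} {Ψ' : ∀ i, Ω' i → ℝ} {c κ : ℕ → ℝ} {wd : ∀ i, Ω i → X i}
  {wd' : ∀ i, Ω' i → X i} {G : ∀ i, X i → ℝ} {Gd : ∀ i, Set (Ω i)} {Gd' : ∀ i, Set (Ω' i)}
  {ε δ q b Λ h τ η κP bW : ℕ → ℝ} {L e a : ℕ → ℝ} {k w : ℕ → ℕ} {n0 : ℕ}

/-- the fields of level `i`, all pairs of the window included -/
def LevR (Ω Ω' X : ℕ → Type) [∀ i, MeasurableSpace (Ω i)] [∀ i, MeasurableSpace (Ω' i)]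
    [∀ i, MeasurableSpace (X i)] (ν : ∀ i, Measure (Ω i)) (ν' : ∀ i, Measure (Ω' i))
    (Ψ : ∀ i, Ω i → ℝ) (Ψ' : ∀ i, Ω' i → ℝ) (c κ : ℕ → ℝ) (w : ∀ i, Ω i → X i)
    (w' : ∀ i, Ω' i → X i) (G : ∀ i, X i → ℝ) (Gd : ∀ i, Set (Ω i)) (Gd' : ∀ i, Set (Ω' i))
    (δ q b Λ h τ η κP bW : ℕ → ℝ) (L e a : ℕ → ℝ) (k wn : ℕ → ℕ) (n0 i : ℕ) : Prop :=
  Lev Ω Ω' X ν ν' Ψ Ψ' c κ w w' G Gd Gd' δ q b Λ h τ η κP bW i ∧
  ∀ R : ℕ, Rb k wn n0 i ≤ R → R ≤ Rb k wn n0 (i + 1) →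
    Oth (ν i) (w i) (G i) (Λ i) (δ i) (q i) (b i) (h i) (τ i) (Real.exp (L R))
      (Real.exp (L (Rb k wn n0 i) - a (itw wn n0 i) / 2 * (e R - e (Rb k wn n0 i))))

/-- the relations below give 686's relations between the base pairs -/
theorem BelR.bel (hF : Fit c κ L e a k w n0)
    (hk : ∀ j, Rb k w n0 j ≤ Rb k w n0 (j + 1)) {i : ℕ}
    (hB : BelR L e a k w n0 (er ε h Λ) i) : Bel c κ ε h Λ i := by
  intro j hj
  have h1 := hB j hj (Rb k w n0 (j + 1)) (hk j) le_rfl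
  have e1 : Real.log (c (j + 1)) = L (Rb k w n0 (j + 1)) := by
    rw [hF.c_eq (j + 1), Real.log_exp]; rfl
  have e2 : Real.log (κ j) = L (Rb k w n0 j) -
      a (itw w n0 j) / 2 * (e (Rb k w n0 (j + 1)) - e (Rb k w n0 j)) := by
    rw [hF.κ_eq j, Real.log_exp]; rfl
  rw [e1, e2]
  refine le_of_eq_of_le ?_ h1
  congr 1
  ring

/-- **strong induction, all pairs**: every module of level `i` may assume the relation in all the
windows below -/
theorem levR_of_below (N : Num Ω Ω' ν ν' ε δ q b Λ h τ η κP bW)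
    (H : ∀ i, BelR L e a k w n0 (er ε h Λ) i →
      LevR Ω Ω' X ν ν' Ψ Ψ' c κ wd wd' G Gd Gd' δ q b Λ h τ η κP bW L e a k w n0 i) (i : ℕ) :
    BelR L e a k w n0 (er ε h Λ) i ∧
      LevR Ω Ω' X ν ν' Ψ Ψ' c κ wd wd' G Gd Gd' δ q b Λ h τ η κP bW L e a k w n0 i := by
  induction i using Nat.strong_induction_on with
  | _ i ih =>
    have hB : BelR L e a k w n0 (er ε h Λ) i := by
      intro j hj R h1 h2
      obtain ⟨ΩR, mR, νR, ΨR, wR, GdR, pR, HR, hc⟩ := (ih j hj).2.2 R h1 h2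
      have h3 := rel_upto N j (fun k hk => (ih k (lt_of_le_of_lt hk hj)).2.1) HR hc
      rw [Real.log_exp, Real.log_exp] at h3
      refine le_of_eq_of_le ?_ h3
      congr 1
      ring
    exact ⟨hB, H i hB⟩

/-- **the chain and all the relations from conditional levels** -/
theorem chain_of_belowR (N : Num Ω Ω' ν ν' ε δ q b Λ h τ η κP bW)
    (H : ∀ i, BelR L e a k w n0 (er ε h Λ) i →
      LevR Ω Ω' X ν ν' Ψ Ψ' c κ wd wd' G Gd Gd' δ q b Λ h τ η κP bW L e a k w n0 i) :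
    Chain Ω Ω' X ν ν' Ψ Ψ' c κ wd wd' G Gd Gd' ε δ q b Λ h τ η κP bW ∧
      ∀ i, BelR L e a k w n0 (er ε h Λ) i :=
  ⟨{ pr := N.pr
     pr' := N.pr'
     loc := fun i => (levR_of_below N H i).2.1.loc
     loc' := fun i => (levR_of_below N H i).2.1.loc'
     cmp := fun i => (levR_of_below N H i).2.1.cmp
     stp := fun i => (levR_of_below N H i).2.1.stp
     sml := N.sml
     alp := N.alp
     slow := N.slow }, fun i => (levR_of_below N H i).1⟩

end chain

/-! ### slopes -/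

section slope

variable {L e a F : ℕ → ℝ} {k w : ℕ → ℕ} {n0 : ℕ} {κ0 Ce β Fm : ℝ}

/-- numbers of the slope: energies `e R = (1/π) log R + κ0 + O(Ce)`, `0 ≤ a ≤ π/2`, and windows long
enough to absorb the constants into the exponent `β > 1/4` -/
structure Slo (e a F : ℕ → ℝ) (k w : ℕ → ℕ) (n0 : ℕ) (κ0 Ce β Fm : ℝ) : Prop where
  mon : ∀ j, Rb k w n0 j ≤ Rb k w n0 (j + 1)
  a0 : ∀ j, 0 ≤ a (itw w n0 j)
  a1 : ∀ j, a (itw w n0 j) ≤ Real.pi / 2
  en : ∀ R : ℕ, Rb k w n0 0 ≤ R → |e R - 1 / Real.pi * Real.log R - κ0| ≤ Ce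
  β0 : 1 / 4 ≤ β
  F0 : ∀ j, F j ≤ Fm
  win : ∀ j, Real.pi / 2 * Ce + F j ≤
    (β - 1 / 4) * (Real.log (Rb k w n0 (j + 1)) - Real.log (Rb k w n0 j))

lemma Slo.Rb_mono (H : Slo e a F k w n0 κ0 Ce β Fm) : Monotone (Rb k w n0) :=
  monotone_nat_of_le_succ H.mon

/-- energy difference -/
lemma Slo.e_le (H : Slo e a F k w n0 κ0 Ce β Fm) {r R : ℕ} (h0 : Rb k w n0 0 ≤ r) (hr : r ≤ R)
    (j : ℕ) : a (itw w n0 j) / 2 * (e R - e r) ≤
      1 / 4 * (Real.log R - Real.log r) + Real.pi / 2 * Ce := by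
  have h1 := abs_le.1 (H.en R (h0.trans hr))
  have h2 := abs_le.1 (H.en r h0)
  have ha0 := H.a0 j
  have ha1 := H.a1 j
  have hπ := Real.pi_pos
  have hr0 : (0 : ℝ) < r := by
    have := Rb_pos k w n0 0
    exact_mod_cast lt_of_lt_of_le this h0
  have hlog : 0 ≤ Real.log R - Real.log r :=
    sub_nonneg.2 (Real.log_le_log hr0 (by exact_mod_cast hr))
  have hCe : 0 ≤ Ce := (abs_nonneg _).trans (H.en r h0)
  have h3 : e R - e r ≤ 1 / Real.pi * (Real.log R - Real.log r) + 2 * Ce := by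
    have : 1 / Real.pi * (Real.log R - Real.log r) =
      1 / Real.pi * Real.log R - 1 / Real.pi * Real.log r := by ring
    rw [this]
    linarith [h1.2, h2.1]
  have h4 : 0 ≤ 1 / Real.pi * (Real.log R - Real.log r) + 2 * Ce := by positivity
  calc a (itw w n0 j) / 2 * (e R - e r)
      ≤ a (itw w n0 j) / 2 * (1 / Real.pi * (Real.log R - Real.log r) + 2 * Ce) :=
        mul_le_mul_of_nonneg_left h3 (by positivity)
    _ ≤ (Real.pi / 2) / 2 * (1 / Real.pi * (Real.log R - Real.log r) + 2 * Ce) :=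
        mul_le_mul_of_nonneg_right (by linarith) h4
    _ = 1 / 4 * (Real.log R - Real.log r) + Real.pi / 2 * Ce := by
        field_simp
        ring

/-- one window from its base point -/
lemma Slo.win_le (H : Slo e a F k w n0 κ0 Ce β Fm) {i j : ℕ} (hB : BelR L e a k w n0 F i)
    (hj : j < i) {R : ℕ} (h1 : Rb k w n0 j ≤ R) (h2 : R ≤ Rb k w n0 (j + 1)) :
    -(1 / 4 * (Real.log R - Real.log (Rb k w n0 j)) + Real.pi / 2 * Ce + F j) ≤
      L R - L (Rb k w n0 j) := by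
  have h3 := (abs_le.1 (hB j hj R h1 h2)).1
  have h4 := H.e_le (H.Rb_mono (Nat.zero_le j)) h1 j
  linarith

/-- base points: no constant is lost -/
lemma Slo.base_le (H : Slo e a F k w n0 κ0 Ce β Fm) {i : ℕ} (hB : BelR L e a k w n0 F i)
    {j m : ℕ} (hjm : j ≤ m) (hm : m ≤ i) :
    -(β * (Real.log (Rb k w n0 m) - Real.log (Rb k w n0 j))) ≤
      L (Rb k w n0 m) - L (Rb k w n0 j) := by
  induction m, hjm using Nat.le_induction with
  | base => simp
  | succ m hjm ih =>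
    have h1 := ih (by omega)
    have h2 := H.win_le hB (show m < i by omega) (H.mon m) le_rfl
    have h3 := H.win m
    nlinarith

lemma exists_win {m : ℕ → ℕ} (hm : ∀ j, m j ≤ m (j + 1)) {i r : ℕ} (hi : 0 < i) (h0 : m 0 ≤ r)
    (h1 : r ≤ m i) : ∃ j < i, m j ≤ r ∧ r ≤ m (j + 1) := by
  induction i with
  | zero => exact absurd hi (lt_irrefl _)
  | succ i ih =>
    by_cases h : m i ≤ r
    · exact ⟨i, Nat.lt_succ_self i, h, h1⟩
    · rcases Nat.eq_zero_or_pos i with h2 | h2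
      · subst h2; exact absurd h0 h
      · obtain ⟨j, hj, a1, a2⟩ := ih h2 (by omega)
        exact ⟨j, Nat.lt_succ_of_lt hj, a1, a2⟩

/-- **slopes**: `L R - L r ≥ -β log (R / r) - D` for all `R_0 ≤ r ≤ R ≤ R_i`,
`D = π Ce + 3 Fm` -/
theorem Slo.slope (H : Slo e a F k w n0 κ0 Ce β Fm) {i : ℕ} (hB : BelR L e a k w n0 F i)
    {r R : ℕ} (h0 : Rb k w n0 0 ≤ r) (hr : r ≤ R) (hR : R ≤ Rb k w n0 i) (hFm : 0 ≤ Fm) :
    -(β * (Real.log R - Real.log r)) - (Real.pi * Ce + 3 * Fm) ≤ L R - L r := by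
  have hπ := Real.pi_pos
  have hCe : 0 ≤ Ce := (abs_nonneg _).trans (H.en r h0)
  have hβ := H.β0
  have hr0 : (0 : ℝ) < r := by
    have := Rb_pos k w n0 0
    exact_mod_cast lt_of_lt_of_le this h0
  have hD : 0 ≤ Real.pi * Ce + 3 * Fm := by positivity
  rcases Nat.eq_zero_or_pos i with hi | hi
  · subst hi
    have : r = R := le_antisymm hr (hR.trans h0)
    subst this
    simp only [sub_self, mul_zero, neg_zero]
    linarith
  obtain ⟨j, hj, a1, a2⟩ := exists_win H.mon hi h0 (hr.trans hR)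
  have hlogrR : 0 ≤ Real.log R - Real.log r :=
    sub_nonneg.2 (Real.log_le_log hr0 (by exact_mod_cast hr))
  have hrel := abs_le.1 (hB j hj r a1 a2)
  by_cases hc : R ≤ Rb k w n0 (j + 1)
  · -- the same window
    have b1 := (abs_le.1 (hB j hj R (a1.trans hr) hc)).1
    have b2 := H.e_le h0 hr j
    have b3 : a (itw w n0 j) / 2 * (e R - e r) = a (itw w n0 j) / 2 * (e R - e (Rb k w n0 j)) -
      a (itw w n0 j) / 2 * (e r - e (Rb k w n0 j)) := by ring
    rw [b3] at b2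
    have b4 := H.F0 j
    have b5 : 1 / 4 * (Real.log R - Real.log r) ≤ β * (Real.log R - Real.log r) :=
      mul_le_mul_of_nonneg_right hβ hlogrR
    have b6 := hrel.2
    have b7 : 0 ≤ Real.pi / 2 * Ce := by positivity
    have b8 : Real.pi * Ce = Real.pi / 2 * Ce + Real.pi / 2 * Ce := by ring
    linarith
  · push Not at hc
    -- `R` in a later window
    obtain ⟨m, hm, c1, c2⟩ := exists_win H.mon hi (h0.trans hr) hR
    have hjm : j + 1 ≤ m := by
      by_contra hcon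
      have : Rb k w n0 (m + 1) ≤ Rb k w n0 (j + 1) := H.Rb_mono (by omega)
      omega
    -- from `r` to the end of its window
    have d1 := (abs_le.1 (hB j hj (Rb k w n0 (j + 1)) (H.mon j) le_rfl)).1
    have d2 := H.e_le h0 a2 j
    have d3 : a (itw w n0 j) / 2 * (e (Rb k w n0 (j + 1)) - e r) =
      a (itw w n0 j) / 2 * (e (Rb k w n0 (j + 1)) - e (Rb k w n0 j)) -
      a (itw w n0 j) / 2 * (e r - e (Rb k w n0 j)) := by ring
    rw [d3] at d2
    have d4 := H.base_le hB hjm hm.le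
    have d5 := H.win_le hB hm c1 c2
    have d6 := hrel.2
    have d7 := H.F0 j
    have d8 := H.F0 m
    have l1 : 0 ≤ Real.log (Rb k w n0 (j + 1)) - Real.log r :=
      sub_nonneg.2 (Real.log_le_log hr0 (by exact_mod_cast a2))
    have l2 : 0 ≤ Real.log R - Real.log (Rb k w n0 m) := by
      have : (0 : ℝ) < Rb k w n0 m := by exact_mod_cast Rb_pos k w n0 m
      exact sub_nonneg.2 (Real.log_le_log this (by exact_mod_cast c1))
    have m1 : 1 / 4 * (Real.log (Rb k w n0 (j + 1)) - Real.log r) ≤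
      β * (Real.log (Rb k w n0 (j + 1)) - Real.log r) := mul_le_mul_of_nonneg_right hβ l1
    have m2 : 1 / 4 * (Real.log R - Real.log (Rb k w n0 m)) ≤
      β * (Real.log R - Real.log (Rb k w n0 m)) := mul_le_mul_of_nonneg_right hβ l2
    have b8 : Real.pi * Ce = Real.pi / 2 * Ce + Real.pi / 2 * Ce := by ring
    have m3 : β * (Real.log R - Real.log r) = β * (Real.log R - Real.log (Rb k w n0 m)) +
      β * (Real.log (Rb k w n0 m) - Real.log (Rb k w n0 (j + 1))) +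
      β * (Real.log (Rb k w n0 (j + 1)) - Real.log r) := by ring
    rw [m3]
    linarith

/-- **the crude lower bound** (sum form): `L R ≥ L R_0 - (1/4) log (R/R_0) - Σ (errors)` with the
exact exponent `1/4`, errors `F j + (π/2) Ce` per window -/
theorem Slo.low (H : Slo e a F k w n0 κ0 Ce β Fm) {i j : ℕ} (hB : BelR L e a k w n0 F i)
    (hj : j < i) {R : ℕ} (h1 : Rb k w n0 j ≤ R) (h2 : R ≤ Rb k w n0 (j + 1)) :
    L (Rb k w n0 0) - 1 / 4 * (Real.log R - Real.log (Rb k w n0 0)) -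
      ∑ m ∈ range (j + 1), (F m + Real.pi / 2 * Ce) ≤ L R := by
  have key : ∀ m ≤ j, L (Rb k w n0 0) - 1 / 4 * (Real.log (Rb k w n0 m) -
      Real.log (Rb k w n0 0)) - ∑ m ∈ range m, (F m + Real.pi / 2 * Ce) ≤ L (Rb k w n0 m) := by
    intro m hm
    induction m with
    | zero => simp
    | succ m ih =>
      have g1 := ih (by omega)
      have g2 := H.win_le hB (show m < i by omega) (H.mon m) le_rfl
      rw [sum_range_succ]
      linarith
  have g1 := key j le_rfl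
  have g2 := H.win_le hB hj h1 h2
  rw [sum_range_succ]
  linarith

end slope

end Vale.Agent.P159.H27
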