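import Vale.Agent.P159.H686.GlueT

/-!
P159 / H27: the chain of levels by strong induction. The fields of level `i` of 686's `Chain` are
only asked for when the relation is known at all levels below `i` (this gives the crude lower
bound of the two point function which the locality at level `i` needs).
-/

namespace Vale.Agent.P159.H27

open MeasureTheory Finset
open Vale.Agent.P159.H686

/-- truncated version of `rec_sol` -/
theorem rec_upto {D ε θ : ℕ → ℝ} (hθ0 : ∀ i, 0 ≤ θ i) (hθ : ∀ i, θ i ≤ 1 / 4)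
    (hε0 : ∀ i, 0 ≤ ε i) (hε : ∀ i, ε i ≤ 2 * ε (i + 1)) (hD0 : 0 ≤ D 0) (i : ℕ)
    (hD : ∀ j < i, D (j + 1) ≤ θ j * D j + 45 * ε j + 2 * ε (j + 1)) :
    D i ≤ (1 / 4) ^ i * D 0 + 184 * ε i := by
  induction i with
  | zero =>
    have := hε0 0
    simp
    linarith
  | succ i ih =>
    have h1 := hD i (Nat.lt_succ_self i)
    have ih' := ih fun j hj => hD j (Nat.lt_succ_of_lt hj)
    have h2 : θ i * D i ≤ θ i * ((1 / 4) ^ i * D 0 + 184 * ε i) :=
      mul_le_mul_of_nonneg_left ih' (hθ0 i)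
    have h3 : θ i * ((1 / 4) ^ i * D 0 + 184 * ε i) ≤ 1 / 4 * ((1 / 4) ^ i * D 0 + 184 * ε i) := by
      have := hε0 i
      exact mul_le_mul_of_nonneg_right (hθ i) (by positivity)
    have h4 := hε i
    rw [pow_succ]
    linarith

section chain

variable {Ω Ω' X : ℕ → Type} [∀ i, MeasurableSpace (Ω i)] [∀ i, MeasurableSpace (Ω' i)]
  [∀ i, MeasurableSpace (X i)] {ν : ∀ i, Measure (Ω i)} {ν' : ∀ i, Measure (Ω' i)}
  {Ψ : ∀ i, Ω i → ℝ} {Ψ' : ∀ i, Ω' i → ℝ} {c κ : ℕ → ℝ} {w : ∀ i, Ω i → X i}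
  {w' : ∀ i, Ω' i → X i} {G : ∀ i, X i → ℝ} {Gd : ∀ i, Set (Ω i)} {Gd' : ∀ i, Set (Ω' i)}
  {ε δ q b L h τ η κP bW : ℕ → ℝ}

/-- the fields of level `i` -/
structure Lev (Ω Ω' X : ℕ → Type) [∀ i, MeasurableSpace (Ω i)] [∀ i, MeasurableSpace (Ω' i)]
    [∀ i, MeasurableSpace (X i)] (ν : ∀ i, Measure (Ω i)) (ν' : ∀ i, Measure (Ω' i))
    (Ψ : ∀ i, Ω i → ℝ) (Ψ' : ∀ i, Ω' i → ℝ) (c κ : ℕ → ℝ) (w : ∀ i, Ω i → X i)
    (w' : ∀ i, Ω' i → X i) (G : ∀ i, X i → ℝ) (Gd : ∀ i, Set (Ω i)) (Gd' : ∀ i, Set (Ω' i))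
    (δ q b L h τ η κP bW : ℕ → ℝ) (i : ℕ) : Prop where
  loc : Lcl (ν i) (Ψ i) (c i) (c i) (w i) (G i) (Gd i) (L i) (δ i) (q i) (b i)
  loc' : Lcl (ν' i) (Ψ' i) (c (i + 1)) (κ i) (w' i) (G i) (Gd' i) (L i) (δ i) (q i) (b i)
  cmp : Cmp (ν i) (ν' i) (w i) (w' i) (h i) (τ i)
  stp : Stp (ν' i) (ν (i + 1)) (Ψ' i) (Ψ (i + 1)) (c (i + 1)) (w' i) (κP i) (η i) (bW i)

/-- the error of the relation at level `i` -/
noncomputable def er (ε h L : ℕ → ℝ) (i : ℕ) : ℝ :=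
  2 * (7 * ε i + h i * min ((1 / 4) ^ i * L 0 + 184 * ε i) 3)

/-- the unconditional part of the chain: probability measures and numbers -/
structure Num (Ω Ω' : ℕ → Type) [∀ i, MeasurableSpace (Ω i)] [∀ i, MeasurableSpace (Ω' i)]
    (ν : ∀ i, Measure (Ω i)) (ν' : ∀ i, Measure (Ω' i)) (ε δ q b L h τ η κP bW : ℕ → ℝ) :
    Prop where
  pr : ∀ i, IsProbabilityMeasure (ν i)
  pr' : ∀ i, IsProbabilityMeasure (ν' i)
  sml : ∀ i, Sml (ε i) (δ i) (q i) (b i) (L i) (h i) (τ i) (η i) (κP i) (bW i)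
    (L (i + 1)) (b (i + 1))
  alp : ∀ i, 5 * al (κP i) (η i) + 4 * ε i ≤ 1 / 4
  slow : ∀ i, ε i ≤ 2 * ε (i + 1)

lemma Num.er_nonneg (N : Num Ω Ω' ν ν' ε δ q b L h τ η κP bW) (i : ℕ) : 0 ≤ er ε h L i := by
  have h1 := (N.sml i).ε0
  have h2 := (N.sml i).h0
  have h3 := (N.sml 0).L1
  unfold er
  have : 0 ≤ min ((1 / 4) ^ i * L 0 + 184 * ε i) 3 := by
    apply le_min _ (by norm_num)
    positivity
  positivity

/-- the distance at level `i` -/
theorem dst_upto (N : Num Ω Ω' ν ν' ε δ q b L h τ η κP bW) (i : ℕ)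
    (C : ∀ j ≤ i, Lev Ω Ω' X ν ν' Ψ Ψ' c κ w w' G Gd Gd' δ q b L h τ η κP bW j) :
    dst (ν i) (w i) (G i) ≤ (1 / 4) ^ i * L 0 + 184 * ε i := by
  have hα0 : ∀ i, 0 ≤ al (κP i) (η i) := fun i => by
    have := (N.sml i).η0
    have := (N.sml i).κ0
    unfold al
    positivity
  have hrec : ∀ j < i, dst (ν (j + 1)) (w (j + 1)) (G (j + 1))
      ≤ (5 * al (κP j) (η j) + 4 * ε j) * dst (ν j) (w j) (G j) + 45 * ε j + 2 * ε (j + 1) := by
    intro j hj
    have := N.pr j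
    have := N.pr' j
    have := N.pr (j + 1)
    have S := N.sml j
    have Sp := N.sml (j + 1)
    have Cj := C j hj.le
    have Cp := C (j + 1) hj
    obtain ⟨r1, r2, _, _⟩ := xfer Cj.loc Cj.loc' Cj.cmp S.L1 S.δ0 S.q0 S.h0 S.τ0 S.sm
    have hα : al (κP j) (η j) ≤ 1 := by
      have := N.alp j
      have := S.ε0
      linarith
    obtain ⟨s1, s2⟩ := S.step (D := dst (ν j) (w j) (G j)) (δp := δ (j + 1)) (εp := ε (j + 1))
      dst_nonneg (abs_nonneg _) r2 r1 hα Sp.δε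
    have h1 := one_level Cj.loc Cj.loc' Cj.cmp Cj.stp Cp.loc S.L1 Sp.L1 S.δ0 Sp.δ0
      (by linarith [Sp.δε, Sp.ε1]) S.q0 S.h0 S.κ0 S.η0 S.τ0 S.sm le_rfl s1
    exact h1.trans s2
  have hD0 : dst (ν 0) (w 0) (G 0) ≤ L 0 := by
    have := N.pr 0
    have H := (C 0 (Nat.zero_le i)).loc
    have S := N.sml 0
    unfold dst
    rw [Real.sqrt_le_left H.L0]
    have hI := int_sub_sq (ν := ν 0) H.Gm H.wm H.G0 H.Gb S.L1
    calc ∫ x, (G 0 (w 0 x) - 1) ^ 2 ∂(ν 0) ≤ ∫ _, L 0 ^ 2 ∂(ν 0) := by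
          refine integral_mono hI (integrable_const _) fun x => ?_
          simp only
          rw [← sq_abs]
          exact pow_le_pow_left₀ (abs_nonneg _) (abs_sub_one_le S.L1 (H.G0 _) (H.Gb _)) 2
      _ = L 0 ^ 2 := by simp
  have h := rec_upto (D := fun i => dst (ν i) (w i) (G i)) (ε := ε)
    (θ := fun i => 5 * al (κP i) (η i) + 4 * ε i)
    (fun i => by
      have := hα0 i
      have := (N.sml i).ε0
      positivity) N.alp (fun i => (N.sml i).ε0) N.slow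
    (by
      have := N.pr 0
      exact dst_nonneg) i hrec
  refine h.trans ?_
  have := mul_le_mul_of_nonneg_left hD0 (by positivity : (0 : ℝ) ≤ (1 / 4) ^ i)
  linarith

/-- the relation at level `i` for any other pair, from the levels `≤ i` -/
theorem rel_upto (N : Num Ω Ω' ν ν' ε δ q b L h τ η κP bW) (i : ℕ)
    (C : ∀ j ≤ i, Lev Ω Ω' X ν ν' Ψ Ψ' c κ w w' G Gd Gd' δ q b L h τ η κP bW j)
    {ΩR : Type} [MeasurableSpace ΩR] {νR : Measure ΩR} [IsProbabilityMeasure νR]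
    {ΨR : ΩR → ℝ} {cR κR : ℝ} {wR : ΩR → X i} {GdR : Set ΩR}
    (HR : Lcl νR ΨR cR κR wR (G i) GdR (L i) (δ i) (q i) (b i))
    (hc : Cmp (ν i) νR (w i) wR (h i) (τ i)) :
    |Real.log cR - Real.log κR| ≤ er ε h L i := by
  have := N.pr i
  have S := N.sml i
  obtain ⟨r1, r2, _, _⟩ := xfer (C i le_rfl).loc HR hc S.L1 S.δ0 S.q0 S.h0 S.τ0 S.sm
  have r3 := S.err r1
  have r4 : h i * min (dst (ν i) (w i) (G i)) 3
      ≤ h i * min ((1 / 4) ^ i * L 0 + 184 * ε i) 3 :=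
    mul_le_mul_of_nonneg_left (min_le_min_right _ (dst_upto N i C)) S.h0
  have hp : 0 < cR / κR := div_pos HR.hc HR.hκ
  rw [← Real.log_div HR.hc.ne' HR.hκ.ne']
  have hlow : 5 / 8 ≤ cR / κR := by
    have := (abs_le.1 r2).1
    linarith
  have hlog : |Real.log (cR / κR)| ≤ 2 * |cR / κR - 1| := by
    rw [abs_le]
    constructor
    · have h1 := Real.one_sub_inv_le_log_of_pos hp
      have h2 : -(2 * |cR / κR - 1|) ≤ 1 - (cR / κR)⁻¹ := by
        have e : 1 - (cR / κR)⁻¹ = (cR / κR)⁻¹ * (cR / κR - 1) := by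
          rw [mul_sub, inv_mul_cancel₀ hp.ne', mul_one]
        have hi : (cR / κR)⁻¹ ≤ 2 := by
          rw [inv_le_comm₀ hp (by norm_num)]
          linarith
        have hi0 : 0 < (cR / κR)⁻¹ := inv_pos.2 hp
        rw [e]
        have h3 := neg_abs_le (cR / κR - 1)
        have h4 := abs_nonneg (cR / κR - 1)
        nlinarith
      linarith
    · have h1 := Real.log_le_sub_one_of_pos hp
      have := le_abs_self (cR / κR - 1)
      have := abs_nonneg (cR / κR - 1)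
      linarith
  refine hlog.trans ?_
  unfold er
  linarith

/-- the knowledge from the levels below `i`: all the relations `c_{j+1} ≈ κ_j`, `j < i` -/
def Bel (c κ ε h L : ℕ → ℝ) (i : ℕ) : Prop :=
  ∀ j < i, |Real.log (c (j + 1)) - Real.log (κ j)| ≤ er ε h L j

/-- **strong induction over the levels** -/
theorem lev_of_below (N : Num Ω Ω' ν ν' ε δ q b L h τ η κP bW)
    (H : ∀ i, Bel c κ ε h L i →
      Lev Ω Ω' X ν ν' Ψ Ψ' c κ w w' G Gd Gd' δ q b L h τ η κP bW i) (i : ℕ) :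
    Bel c κ ε h L i ∧ Lev Ω Ω' X ν ν' Ψ Ψ' c κ w w' G Gd Gd' δ q b L h τ η κP bW i := by
  induction i using Nat.strong_induction_on with
  | _ i ih =>
    have hB : Bel c κ ε h L i := by
      intro j hj
      have := N.pr' j
      exact rel_upto N j (fun k hk => (ih k (lt_of_le_of_lt hk hj)).2) (ih j hj).2.loc'
        (ih j hj).2.cmp
    exact ⟨hB, H i hB⟩

/-- **the chain from conditional levels** -/
theorem chain_of_below (N : Num Ω Ω' ν ν' ε δ q b L h τ η κP bW)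
    (H : ∀ i, Bel c κ ε h L i →
      Lev Ω Ω' X ν ν' Ψ Ψ' c κ w w' G Gd Gd' δ q b L h τ η κP bW i) :
    Chain Ω Ω' X ν ν' Ψ Ψ' c κ w w' G Gd Gd' ε δ q b L h τ η κP bW where
  pr := N.pr
  pr' := N.pr'
  loc i := (lev_of_below N H i).2.loc
  loc' i := (lev_of_below N H i).2.loc'
  cmp i := (lev_of_below N H i).2.cmp
  stp i := (lev_of_below N H i).2.stp
  sml := N.sml
  alp := N.alp
  slow := N.slow

end chain

/-- **the lower bound of the two point function from the relations below** -/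
theorem low_of_below {c κ ε h L E a : ℕ → ℝ} {S : ℝ} (hc : ∀ j, 0 < c j)
    (hκ : ∀ j, κ j = c j * Real.exp (-(a j / 2 * (E (j + 1) - E j))))
    (ha : ∀ j, a j ≤ S) (hE : ∀ j, E j ≤ E (j + 1)) (i : ℕ) (hB : Bel c κ ε h L i) :
    Real.log (c 0) - S / 2 * (E i - E 0) - ∑ j ∈ range i, er ε h L j ≤ Real.log (c i) := by
  induction i with
  | zero => simp
  | succ i ih =>
    have h1 := ih fun j hj => hB j (Nat.lt_succ_of_lt hj)
    have h2 := (abs_le.1 (hB i (Nat.lt_succ_self i))).1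
    have h3 : Real.log (κ i) = Real.log (c i) - a i / 2 * (E (i + 1) - E i) := by
      rw [hκ i, Real.log_mul (hc i).ne' (Real.exp_pos _).ne', Real.log_exp]
      ring
    have h4 : a i / 2 * (E (i + 1) - E i) ≤ S / 2 * (E (i + 1) - E i) :=
      mul_le_mul_of_nonneg_right (by linarith [ha i]) (by linarith [hE i])
    rw [sum_range_succ]
    linarith

end Vale.Agent.P159.H27
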