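import Vale.Agent.P159.H529.Ub1
import Vale.Agent.P159.H529.Qf4
import Vale.Agent.P159.H270.Ed2e
import Vale.Agent.P159.H817.Ang5

/-!
P159 (helper27), **(UB)**: upper bounds of the massive partition functions of the torus with a
dislocation `η` (any charges `q`) and any real field, against the wired correlation `EQ b Λ q`:

* `ub_ZM`, `ub_Zn` : for every real field `Φ` and every real function `j` of the edges which vanishes
  on the edges touching `Λ`,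
  `Z(η, Φ) ≤ EQ b Λ q · exp (b Σ (cosh j - 1) - ⟨j, η + gr Φ⟩ + |dv j|² / (2 t)) · Z(0, 0)`,
* `ub_ZM'`, `ub_Zn'` : `t f = K + dv j`,
  `Z(η, φ + f) ≤ EQ b Λ q · exp (b Σ (cosh j - 1) - ⟨j, η + gr φ⟩ - t |f|² / 2 + |K|² / (2 t)) · Z(0, 0)`,
* `ub0_ZM`, `ub0_Zn`, `ub0_ZM'`, `ub0_Zn'` : the same without `EQ`, for every `η` and every `j`.
-/

set_option linter.all false

namespace Vale.Agent.P159.H27

open Finset Matrix MeasureTheory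
open Vale.Agent.P159.TM.H104 (EM li)
open Vale.Agent.P159.H37 (wM ZM qf bf Zn Zs re)
open Vale.Agent.P159.H963 (pin MF ntr)
open Vale.Agent.P159.H770 (wTD gwf_wTD wTD_zero Ed eS eT)
open Vale.Agent.P159.TM.SpecC (Tor wT)
open Vale.Agent.P159.H513 (cuZ)
open Vale.Agent.P159.H529.Qf (EQ InT DQ)
open Vale.Agent.P159.H529.Ub (Zu ZM_tilt Zn_tilt)
open Vale.Agent.P159.H883 (Zp)
open Vale.Agent.P159.H817 (gr dv parts)

noncomputable section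

variable {N : ℕ} [NeZero N]

/-- coordinates of a site (of the face whose lower left corner it is) -/
def fcv (x : Tor N) : ℤ × ℤ := ((x.1.val : ℤ), (x.2.val : ℤ))

/-- one of the two faces of the edge `e` is in `Λ` -/
def Tch (N : ℕ) [NeZero N] (Λ : Finset (ℤ × ℤ)) (e : Ed N) : Prop :=
  fcv e.1 ∈ Λ ∨ fcv (e.1 - (if e.2 then (1, 0) else (0, 1))) ∈ Λ

/-- the exponential moment of the massless model -/
def EXB (N : ℕ) [NeZero N] (b : ℝ) (η : Ed N → ℤ) (j : Ed N → ℝ) (C : ℝ) : Prop :=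
  ∑' h, pin (wTD N b η) 0 h * Real.exp (∑ e : Ed N, j e *
        ((h (eT N e) - h (eS N e) + η e : ℤ) : ℝ)) ≤
      C * Real.exp (b * ∑ e : Ed N, (Real.cosh (j e) - 1)) * Zp (wT b N) 0

variable {b t : ℝ}

theorem exb_EQ (hN : 2 ≤ N) (hb : 0 ≤ b) {η : Ed N → ℤ} {q : ℤ × ℤ → ℤ}
    (hη : ∀ v : Tor N, cuZ η v = q (fcv v)) {Λ : Finset (ℤ × ℤ)} (hΛ : InT N Λ) {j : Ed N → ℝ}
    (hj : ∀ e, Tch N Λ e → j e = 0) : EXB N b η j (EQ b Λ q) := by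
  obtain ⟨M, rfl⟩ : ∃ M, N = M + 2 := ⟨N - 2, by omega⟩
  have hΛ' : Λ ⊆ inner (M + 1) := by
    intro z hz
    have h4 := hΛ z hz
    rw [H773.mem_inner_iff]
    push_cast at h4 ⊢
    omega
  exact (H270.expD hb hΛ' (q := q) (η := η) (fun v => hη v) 0 j fun e he => hj e he).2

theorem exb_one (hN : 2 ≤ N) (hb : 0 ≤ b) (η : Ed N → ℤ) (j : Ed N → ℝ) : EXB N b η j 1 := by
  obtain ⟨M, rfl⟩ : ∃ M, N = M + 2 := ⟨N - 2, by omega⟩
  unfold EXB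
  rw [one_mul]
  exact (H270.expD0 (M := M) hb η 0 j).2

/-! ### the source `dv j` -/

lemma sum_dv (j : Ed N → ℝ) : ∑ x : Tor N, dv j x = 0 := by
  have h := parts j (fun _ : Tor N => (1 : ℝ))
  simp only [one_mul] at h
  rw [← h]
  refine Finset.sum_eq_zero fun e _ => ?_
  unfold gr
  split_ifs <;> simp

lemma gr_eq' (f : Tor N → ℝ) (e : Ed N) : gr f e = f (eT N e) - f (eS N e) := by
  unfold gr eT eS
  split_ifs <;> rfl

lemma li_dv (j : Ed N → ℝ) (h : Tor N → ℤ) :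
    li (dv j) h = ∑ e : Ed N, j e * ((h (eT N e) - h (eS N e) : ℤ) : ℝ) := by
  have h1 := parts j (fun x : Tor N => (h x : ℝ))
  unfold li
  have e1 : ∑ x : Tor N, dv j x * (h x : ℝ) = ∑ x : Tor N, (h x : ℝ) * dv j x :=
    Finset.sum_congr rfl fun x _ => mul_comm _ _
  rw [e1, ← h1]
  refine Finset.sum_congr rfl fun e _ => ?_
  rw [gr_eq']
  push_cast
  ring

lemma ntr_smul_dv {t : ℝ} (ht : 0 < t) (j : Ed N → ℝ) :
    ntr (t • (1 : Matrix (Tor N) (Tor N) ℝ)) t *ᵥ (t⁻¹ • dv j) = dv j := by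
  have h0 : (Matrix.of fun _ _ : Tor N => t / (Fintype.card (Tor N) : ℝ)) *ᵥ (t⁻¹ • dv j) = 0 := by
    funext y
    simp only [Matrix.mulVec, dotProduct, Matrix.of_apply, Pi.smul_apply, smul_eq_mul, Pi.zero_apply]
    rw [← Finset.mul_sum, ← Finset.mul_sum, sum_dv, mul_zero, mul_zero]
  unfold ntr
  rw [Matrix.sub_mulVec, h0, sub_zero, Matrix.smul_mulVec, Matrix.one_mulVec, smul_smul,
    mul_inv_cancel₀ ht.ne', one_smul]

lemma exp_tilt {t : ℝ} (ht : 0 < t) (j : Ed N → ℝ) (Φ : Tor N → ℝ) :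
    -(bf (ntr (t • (1 : Matrix (Tor N) (Tor N) ℝ)) t) Φ (t⁻¹ • dv j)) +
      qf (ntr (t • (1 : Matrix (Tor N) (Tor N) ℝ)) t) (t⁻¹ • dv j) / 2 =
    -(∑ e : Ed N, j e * gr Φ e) + (∑ x, dv j x ^ 2) / (2 * t) := by
  rw [H37.bf_eq, H37.qf_eq, ntr_smul_dv ht, parts]
  have e1 : Φ ⬝ᵥ dv j = ∑ x, Φ x * dv j x := rfl
  have e2 : (t⁻¹ • dv j) ⬝ᵥ dv j = t⁻¹ * ∑ x, dv j x ^ 2 := by
    unfold dotProduct
    rw [Finset.mul_sum]
    exact Finset.sum_congr rfl fun x _ => by rw [Pi.smul_apply, smul_eq_mul]; ring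
  rw [e1, e2]
  field_simp

lemma Zu_le {η : Ed N → ℤ} {j : Ed N → ℝ} {C : ℝ} (h : EXB N b η j C) :
    Zu (wTD N b η) 0 (dv j) ≤ C * Real.exp (b * ∑ e : Ed N, (Real.cosh (j e) - 1) -
      ∑ e : Ed N, j e * (η e : ℝ)) * Zp (wT b N) 0 := by
  have e1 : Zu (wTD N b η) 0 (dv j) = Real.exp (-∑ e : Ed N, j e * (η e : ℝ)) *
      ∑' h, pin (wTD N b η) 0 h * Real.exp (∑ e : Ed N, j e *
        ((h (eT N e) - h (eS N e) + η e : ℤ) : ℝ)) := by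
    unfold Zu
    rw [← tsum_mul_left]
    refine tsum_congr fun h => ?_
    have e2 : Real.exp (li (dv j) h) = Real.exp (-∑ e : Ed N, j e * (η e : ℝ)) *
        Real.exp (∑ e : Ed N, j e * ((h (eT N e) - h (eS N e) + η e : ℤ) : ℝ)) := by
      rw [← Real.exp_add, li_dv, ← Finset.sum_neg_distrib, ← Finset.sum_add_distrib]
      congr 1
      refine Finset.sum_congr rfl fun e _ => ?_
      push_cast
      ring
    rw [e2]
    ring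
  rw [e1, sub_eq_add_neg, Real.exp_add]
  calc _ ≤ Real.exp (-∑ e : Ed N, j e * (η e : ℝ)) *
        (C * Real.exp (b * ∑ e : Ed N, (Real.cosh (j e) - 1)) * Zp (wT b N) 0) :=
        mul_le_mul_of_nonneg_left h (Real.exp_pos _).le
    _ = _ := by ring

lemma Zp_pos' (hb : 0 < b) : 0 < Zp (wT b N) (0 : Tor N) := by
  have h := (H883.gwf_bw (gwf_wTD (N := N) hb) (H883.em_pin_wTD hb) 0).Zp_pos (0 : Tor N)
  rwa [wTD_zero] at h

/-- the exponent of (UB) -/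
def EU (b t : ℝ) (η : Ed N → ℤ) (j : Ed N → ℝ) (Φ : Tor N → ℝ) : ℝ :=
  b * ∑ e : Ed N, (Real.cosh (j e) - 1) - ∑ e : Ed N, j e * ((η e : ℝ) + gr Φ e) +
    (∑ x, dv j x ^ 2) / (2 * t)

lemma ub_aux (hb : 0 < b) (ht : 0 < t) {η : Ed N → ℤ} {j : Ed N → ℝ} {C : ℝ}
    (h : EXB N b η j C) (Φ : Tor N → ℝ) :
    Real.exp (-(bf (ntr (t • (1 : Matrix (Tor N) (Tor N) ℝ)) t) Φ (t⁻¹ • dv j)) +
      qf (ntr (t • (1 : Matrix (Tor N) (Tor N) ℝ)) t) (t⁻¹ • dv j) / 2) *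
      (Zu (wTD N b η) 0 (ntr (t • (1 : Matrix (Tor N) (Tor N) ℝ)) t *ᵥ (t⁻¹ • dv j)) /
        Zp (wTD N b 0) 0) ≤ C * Real.exp (EU b t η j Φ) := by
  have hz := Zp_pos' (N := N) hb
  rw [exp_tilt ht, ntr_smul_dv ht, wTD_zero, ← mul_div_assoc, div_le_iff₀ hz]
  have h1 := mul_le_mul_of_nonneg_left (Zu_le h)
    (Real.exp_pos (-(∑ e : Ed N, j e * gr Φ e) + (∑ x, dv j x ^ 2) / (2 * t))).le
  refine h1.trans (le_of_eq ?_)
  have e1 : Real.exp (EU b t η j Φ) =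
      Real.exp (-(∑ e : Ed N, j e * gr Φ e) + (∑ x, dv j x ^ 2) / (2 * t)) *
        Real.exp (b * ∑ e : Ed N, (Real.cosh (j e) - 1) - ∑ e : Ed N, j e * (η e : ℝ)) := by
    rw [← Real.exp_add]
    congr 1
    unfold EU
    have e2 : ∑ e : Ed N, j e * ((η e : ℝ) + gr Φ e) =
        ∑ e : Ed N, j e * (η e : ℝ) + ∑ e : Ed N, j e * gr Φ e := by
      rw [← Finset.sum_add_distrib]
      exact Finset.sum_congr rfl fun e _ => by ring
    rw [e2]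
    ring
  rw [e1]
  ring

/-- general form, integer model -/
theorem ubC_ZM (hb : 0 < b) (ht : 0 < t) {η : Ed N → ℤ} {j : Ed N → ℝ} {C : ℝ}
    (h : EXB N b η j C) (Φ : Tor N → ℝ) :
    ZM (wTD N b η) (t • (1 : Matrix (Tor N) (Tor N) ℝ)) Φ ≤ C * Real.exp (EU b t η j Φ) *
      ZM (wT b N) (t • (1 : Matrix (Tor N) (Tor N) ℝ)) 0 := by
  have h1 := ZM_tilt (gwf_wTD (N := N) hb) (H883.em_pin_wTD hb) (H963.mf_smul ht) 0 η Φ
    (t⁻¹ • dv j)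
  have hem := ((gwf_wTD (N := N) hb).disF_wM (H963.mf_smul ht)).em 0
  have h0 := H37.ZM_pos (H963.mf_smul (N := N) ht).symm hem 0
  have h2 := h1.trans (mul_le_mul_of_nonneg_right (ub_aux hb ht h Φ) h0.le)
  rwa [wTD_zero] at h2

/-- general form, neutral model -/
theorem ubC_Zn (hb : 0 < b) (ht : 0 < t) {η : Ed N → ℤ} {j : Ed N → ℝ} {C : ℝ}
    (h : EXB N b η j C) (Φ : Tor N → ℝ) :
    Zn (wTD N b η) (t • (1 : Matrix (Tor N) (Tor N) ℝ)) Φ ≤ C * Real.exp (EU b t η j Φ) *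
      Zn (wT b N) (t • (1 : Matrix (Tor N) (Tor N) ℝ)) 0 := by
  have h1 := Zn_tilt (gwf_wTD (N := N) hb) (H883.em_pin_wTD hb) (H963.mf_smul ht) 0 η Φ
    (t⁻¹ • dv j)
  have h0 := (gwf_wTD (N := N) hb).Zn_pos (H963.mf_smul (N := N) ht) 0 (0 : Tor N → ℝ)
  have h2 := h1.trans (mul_le_mul_of_nonneg_right (ub_aux hb ht h Φ) h0.le)
  rwa [wTD_zero] at h2

/-- completing the square: `t f = K + dv j` -/
lemma EU_eq (ht : 0 < t) (η : Ed N → ℤ) (j : Ed N → ℝ) (φ f K : Tor N → ℝ)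
    (hf : ∀ x, t * f x = K x + dv j x) :
    EU b t η j (fun x => φ x + f x) = b * ∑ e : Ed N, (Real.cosh (j e) - 1) -
      ∑ e : Ed N, j e * ((η e : ℝ) + gr φ e) - t / 2 * ∑ x, f x ^ 2 + (∑ x, K x ^ 2) / (2 * t) := by
  have h1 : ∑ e : Ed N, j e * ((η e : ℝ) + gr (fun x => φ x + f x) e) =
      ∑ e : Ed N, j e * ((η e : ℝ) + gr φ e) + ∑ x, f x * dv j x := by
    rw [← parts, ← Finset.sum_add_distrib]
    refine Finset.sum_congr rfl fun e _ => ?_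
    rw [gr_eq', gr_eq', gr_eq']
    ring
  have h2 : ∑ x, K x ^ 2 = t ^ 2 * ∑ x, f x ^ 2 - 2 * t * ∑ x, f x * dv j x + ∑ x, dv j x ^ 2 := by
    rw [Finset.mul_sum, Finset.mul_sum, ← Finset.sum_sub_distrib, ← Finset.sum_add_distrib]
    refine Finset.sum_congr rfl fun x _ => ?_
    have h3 : K x = t * f x - dv j x := by rw [hf]; ring
    rw [h3]
    ring
  unfold EU
  rw [h1, h2]
  field_simp
  ring

/-! ### (UB) -/

section ub

variable {η : Ed N → ℤ} {q : ℤ × ℤ → ℤ} {Λ : Finset (ℤ × ℤ)} {j : Ed N → ℝ}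

/-- **(UB), any real field, integer model** -/
theorem ub_ZM (hN : 2 ≤ N) (hb : 0 < b) (ht : 0 < t) (hη : ∀ v : Tor N, cuZ η v = q (fcv v))
    (hΛ : InT N Λ) (hj : ∀ e, Tch N Λ e → j e = 0) (Φ : Tor N → ℝ) :
    ZM (wTD N b η) (t • (1 : Matrix (Tor N) (Tor N) ℝ)) Φ ≤ EQ b Λ q * Real.exp (EU b t η j Φ) *
      ZM (wT b N) (t • (1 : Matrix (Tor N) (Tor N) ℝ)) 0 :=
  ubC_ZM hb ht (exb_EQ hN hb.le hη hΛ hj) Φ

/-- **(UB), any real field, neutral model** -/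
theorem ub_Zn (hN : 2 ≤ N) (hb : 0 < b) (ht : 0 < t) (hη : ∀ v : Tor N, cuZ η v = q (fcv v))
    (hΛ : InT N Λ) (hj : ∀ e, Tch N Λ e → j e = 0) (Φ : Tor N → ℝ) :
    Zn (wTD N b η) (t • (1 : Matrix (Tor N) (Tor N) ℝ)) Φ ≤ EQ b Λ q * Real.exp (EU b t η j Φ) *
      Zn (wT b N) (t • (1 : Matrix (Tor N) (Tor N) ℝ)) 0 :=
  ubC_Zn hb ht (exb_EQ hN hb.le hη hΛ hj) Φ

/-- **(UB)** with `t f = K + dv j`, integer model -/
theorem ub_ZM' (hN : 2 ≤ N) (hb : 0 < b) (ht : 0 < t) (hη : ∀ v : Tor N, cuZ η v = q (fcv v))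
    (hΛ : InT N Λ) (hj : ∀ e, Tch N Λ e → j e = 0) (φ f K : Tor N → ℝ)
    (hf : ∀ x, t * f x = K x + dv j x) :
    ZM (wTD N b η) (t • (1 : Matrix (Tor N) (Tor N) ℝ)) (fun x => φ x + f x) ≤
      EQ b Λ q * Real.exp (b * ∑ e : Ed N, (Real.cosh (j e) - 1) -
        ∑ e : Ed N, j e * ((η e : ℝ) + gr φ e) - t / 2 * ∑ x, f x ^ 2 + (∑ x, K x ^ 2) / (2 * t)) *
      ZM (wT b N) (t • (1 : Matrix (Tor N) (Tor N) ℝ)) 0 := by
  rw [← EU_eq ht η j φ f K hf]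
  exact ub_ZM hN hb ht hη hΛ hj _

/-- **(UB)** with `t f = K + dv j`, neutral model -/
theorem ub_Zn' (hN : 2 ≤ N) (hb : 0 < b) (ht : 0 < t) (hη : ∀ v : Tor N, cuZ η v = q (fcv v))
    (hΛ : InT N Λ) (hj : ∀ e, Tch N Λ e → j e = 0) (φ f K : Tor N → ℝ)
    (hf : ∀ x, t * f x = K x + dv j x) :
    Zn (wTD N b η) (t • (1 : Matrix (Tor N) (Tor N) ℝ)) (fun x => φ x + f x) ≤
      EQ b Λ q * Real.exp (b * ∑ e : Ed N, (Real.cosh (j e) - 1) -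
        ∑ e : Ed N, j e * ((η e : ℝ) + gr φ e) - t / 2 * ∑ x, f x ^ 2 + (∑ x, K x ^ 2) / (2 * t)) *
      Zn (wT b N) (t • (1 : Matrix (Tor N) (Tor N) ℝ)) 0 := by
  rw [← EU_eq ht η j φ f K hf]
  exact ub_Zn hN hb ht hη hΛ hj _

end ub

section ub0

/-- (UB) without correlation, every `η` and `j` -/
theorem ub0_ZM (hN : 2 ≤ N) (hb : 0 < b) (ht : 0 < t) (η : Ed N → ℤ) (j : Ed N → ℝ)
    (Φ : Tor N → ℝ) :
    ZM (wTD N b η) (t • (1 : Matrix (Tor N) (Tor N) ℝ)) Φ ≤ Real.exp (EU b t η j Φ) *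
      ZM (wT b N) (t • (1 : Matrix (Tor N) (Tor N) ℝ)) 0 := by
  have h := ubC_ZM hb ht (exb_one hN hb.le η j) Φ
  rwa [one_mul] at h

theorem ub0_Zn (hN : 2 ≤ N) (hb : 0 < b) (ht : 0 < t) (η : Ed N → ℤ) (j : Ed N → ℝ)
    (Φ : Tor N → ℝ) :
    Zn (wTD N b η) (t • (1 : Matrix (Tor N) (Tor N) ℝ)) Φ ≤ Real.exp (EU b t η j Φ) *
      Zn (wT b N) (t • (1 : Matrix (Tor N) (Tor N) ℝ)) 0 := by
  have h := ubC_Zn hb ht (exb_one hN hb.le η j) Φ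
  rwa [one_mul] at h

theorem ub0_ZM' (hN : 2 ≤ N) (hb : 0 < b) (ht : 0 < t) (η : Ed N → ℤ) (j : Ed N → ℝ)
    (φ f K : Tor N → ℝ) (hf : ∀ x, t * f x = K x + dv j x) :
    ZM (wTD N b η) (t • (1 : Matrix (Tor N) (Tor N) ℝ)) (fun x => φ x + f x) ≤
      Real.exp (b * ∑ e : Ed N, (Real.cosh (j e) - 1) -
        ∑ e : Ed N, j e * ((η e : ℝ) + gr φ e) - t / 2 * ∑ x, f x ^ 2 + (∑ x, K x ^ 2) / (2 * t)) *
      ZM (wT b N) (t • (1 : Matrix (Tor N) (Tor N) ℝ)) 0 := by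
  rw [← EU_eq ht η j φ f K hf]
  exact ub0_ZM hN hb ht η j _

theorem ub0_Zn' (hN : 2 ≤ N) (hb : 0 < b) (ht : 0 < t) (η : Ed N → ℤ) (j : Ed N → ℝ)
    (φ f K : Tor N → ℝ) (hf : ∀ x, t * f x = K x + dv j x) :
    Zn (wTD N b η) (t • (1 : Matrix (Tor N) (Tor N) ℝ)) (fun x => φ x + f x) ≤
      Real.exp (b * ∑ e : Ed N, (Real.cosh (j e) - 1) -
        ∑ e : Ed N, j e * ((η e : ℝ) + gr φ e) - t / 2 * ∑ x, f x ^ 2 + (∑ x, K x ^ 2) / (2 * t)) *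
      Zn (wT b N) (t • (1 : Matrix (Tor N) (Tor N) ℝ)) 0 := by
  rw [← EU_eq ht η j φ f K hf]
  exact ub0_Zn hN hb ht η j _

end ub0

end

end Vale.Agent.P159.H27
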