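import Vale.Agent.P159.H27.Ub1

/-!
P159 (helper27), **(UB), lower half**: Cauchy-Schwarz in the background and the comparison of the upper
bound of (UB) with the partition function itself.

* `cs_ZM`, `cs_Zn` : `Z(F)² ≤ exp ⟨f, M f⟩ Z(F + f) Z(F - f)`,
* `pr_ZM`, `pr_Zn` : `t f = K + dv j`, `Y = (η, φ + f)`,
  `EQ exp (U) Z₀ (Z(η, φ) / Z₀)² ≤ EQ² exp (2 b Σ (cosh j - 1) + |K|² / t) Z(Y)`,
  `U` the exponent of (UB): neither `t |f|²` nor `⟨j, η + gr φ⟩` is left.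
-/

set_option linter.all false

namespace Vale.Agent.P159.H27

open Finset Matrix MeasureTheory
open Vale.Agent.P159.TM.H104 (EM li)
open Vale.Agent.P159.H37 (wM ZM qf bf Zn Zs re)
open Vale.Agent.P159.H963 (pin MF ntr)
open Vale.Agent.P159.H770 (wTD gwf_wTD wTD_zero Ed eS eT)
open Vale.Agent.P159.TM.SpecC (Tor wT)
open Vale.Agent.P159.H513 (cuZ)
open Vale.Agent.P159.H529.Qf (EQ InT DQ)
open Vale.Agent.P159.H817 (gr dv parts)

noncomputable section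

section cs

variable {V : Type} [Fintype V] [DecidableEq V] {w : (V → ℤ) → ℝ} {M : Matrix V V ℝ}

lemma sum_ZM (hM : Mᵀ = M) (hE : EM (wM w M)) (F : V → ℝ) :
    Summable fun h : V → ℤ => w h * Real.exp (-(qf M (re h - F) / 2)) := by
  have h1 := hE.summ (TM.H104.Gr.const 1) (M *ᵥ F)
  refine (h1.mul_left (Real.exp (-(qf M F / 2)))).congr fun h => ?_
  unfold wM
  rw [one_mul, H37.li_mass hM, H37.qf_sub_vec hM, mul_assoc, ← mul_assoc, mul_comm _ (w h),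
    mul_assoc, ← Real.exp_add, ← Real.exp_add]
  congr 2
  ring

lemma two_le_am (α x : ℝ) (hα : 0 < α) : 2 ≤ α * Real.exp x + α⁻¹ * Real.exp (-x) := by
  have h1 : 0 < α * Real.exp x := mul_pos hα (Real.exp_pos x)
  have h2 : α⁻¹ * Real.exp (-x) = (α * Real.exp x)⁻¹ := by
    rw [mul_inv, Real.exp_neg]
  rw [h2]
  have h3 : 0 < (α * Real.exp x)⁻¹ := inv_pos.2 h1
  have h4 : (α * Real.exp x) * (α * Real.exp x)⁻¹ = 1 := mul_inv_cancel₀ h1.ne'
  nlinarith [sq_nonneg (α * Real.exp x - (α * Real.exp x)⁻¹)]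

lemma am_ZM (hw : ∀ h, 0 ≤ w h) (hM : Mᵀ = M) (hE : EM (wM w M)) (F f : V → ℝ) {α : ℝ}
    (hα : 0 < α) : 2 * ZM w M F ≤ Real.exp (qf M f / 2) *
      (α * ZM w M (F + f) + α⁻¹ * ZM w M (F - f)) := by
  unfold ZM
  rw [← tsum_mul_left, ← tsum_mul_left, ← tsum_mul_left, ← ((sum_ZM hM hE (F + f)).mul_left
    α).tsum_add ((sum_ZM hM hE (F - f)).mul_left α⁻¹), ← tsum_mul_left]
  refine Summable.tsum_le_tsum (fun h => ?_) ((sum_ZM hM hE F).mul_left 2)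
    ((((sum_ZM hM hE (F + f)).mul_left α).add ((sum_ZM hM hE (F - f)).mul_left α⁻¹)).mul_left _)
  obtain ⟨u, hu⟩ : ∃ u : V → ℝ, u = re h - F := ⟨_, rfl⟩
  have e1 : re h - (F + f) = u - f := by rw [hu]; abel
  have e2 : re h - (F - f) = u + f := by rw [hu]; abel
  rw [e1, e2, ← hu, H37.qf_sub_vec hM u f, H37.qf_add_vec hM u f]
  have e3 : Real.exp (-((qf M u - 2 * bf M u f + qf M f) / 2)) =
      Real.exp (-(qf M u / 2)) * Real.exp (-(qf M f / 2)) * Real.exp (bf M u f) := by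
    rw [← Real.exp_add, ← Real.exp_add]
    congr 1
    ring
  have e4 : Real.exp (-((qf M u + 2 * bf M u f + qf M f) / 2)) =
      Real.exp (-(qf M u / 2)) * Real.exp (-(qf M f / 2)) * Real.exp (-(bf M u f)) := by
    rw [← Real.exp_add, ← Real.exp_add]
    congr 1
    ring
  have e5 : Real.exp (qf M f / 2) * Real.exp (-(qf M f / 2)) = 1 := by
    rw [← Real.exp_add, add_neg_cancel, Real.exp_zero]
  rw [e3, e4]
  have h1 := two_le_am α (bf M u f) hα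
  have h2 : 0 ≤ w h * Real.exp (-(qf M u / 2)) := mul_nonneg (hw h) (Real.exp_pos _).le
  calc 2 * (w h * Real.exp (-(qf M u / 2))) = 1 * (2 * (w h * Real.exp (-(qf M u / 2)))) :=
        (one_mul _).symm
    _ ≤ 1 * ((α * Real.exp (bf M u f) + α⁻¹ * Real.exp (-(bf M u f))) *
          (w h * Real.exp (-(qf M u / 2)))) := by
        rw [one_mul, one_mul]
        exact mul_le_mul_of_nonneg_right h1 h2
    _ = _ := by
        rw [← e5]
        ring

lemma cs_of_am {x y z c : ℝ} (hx : 0 < x) (hy : 0 < y) (hz : 0 ≤ z)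
    (h : ∀ α : ℝ, 0 < α → 2 * z ≤ c * (α * x + α⁻¹ * y)) : z ^ 2 ≤ c ^ 2 * (x * y) := by
  have hs : 0 < Real.sqrt (y / x) := Real.sqrt_pos.2 (div_pos hy hx)
  have h1 := h _ hs
  set s := Real.sqrt (y / x) with hsd
  have h2 : s ^ 2 = y / x := Real.sq_sqrt (div_pos hy hx).le
  have h3 : (s * x) ^ 2 = x * y := by
    rw [mul_pow, h2]
    field_simp
  have h4 : s⁻¹ * y = s * x := by
    have : y = s ^ 2 * x := by rw [h2]; field_simp
    rw [this]
    field_simp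
  rw [h4] at h1
  have h5 : z ≤ c * (s * x) := by linarith
  calc z ^ 2 ≤ (c * (s * x)) ^ 2 := pow_le_pow_left₀ hz h5 2
    _ = c ^ 2 * (s * x) ^ 2 := by ring
    _ = _ := by rw [h3]

/-- **Cauchy-Schwarz, integer model** -/
theorem cs_ZM (hw : ∀ h, 0 ≤ w h) (hM : Mᵀ = M) (hE : EM (wM w M)) (F f : V → ℝ) :
    ZM w M F ^ 2 ≤ Real.exp (qf M f) * (ZM w M (F + f) * ZM w M (F - f)) := by
  have h := cs_of_am (c := Real.exp (qf M f / 2)) (H37.ZM_pos hM hE (F + f))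
    (H37.ZM_pos hM hE (F - f)) (H37.ZM_pos hM hE F).le fun α hα => am_ZM hw hM hE F f hα
  have e : Real.exp (qf M f / 2) ^ 2 = Real.exp (qf M f) := by
    rw [← Real.exp_nat_mul]
    congr 1
    push_cast
    ring
  rwa [e] at h

/-- **Cauchy-Schwarz, neutral model** -/
theorem cs_Zn (hw : ∀ h, 0 ≤ w h) (hM : Mᵀ = M) (hE : EM (wM w M)) (F f : V → ℝ)
    (hp : ∀ G : V → ℝ, 0 < Zn w M G) :
    Zn w M F ^ 2 ≤ Real.exp (qf M f) * (Zn w M (F + f) * Zn w M (F - f)) := by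
  have hc : ∀ F : V → ℝ, Continuous fun c : ℝ => ZM w M (fun x => F x + c) := fun F =>
    (H145.continuous_ZM hM hE).comp (H145.continuous_cs F)
  have hi : ∀ F : V → ℝ, IntervalIntegrable (fun c : ℝ => ZM w M (fun x => F x + c)) volume 0 1 :=
    fun F => (hc F).intervalIntegrable _ _
  have h := cs_of_am (c := Real.exp (qf M f / 2)) (hp (F + f)) (hp (F - f)) (hp F).le
    fun α hα => by
      have h1 : ∫ c in (0 : ℝ)..1, 2 * ZM w M (fun x => F x + c) ≤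
          ∫ c in (0 : ℝ)..1, Real.exp (qf M f / 2) *
            (α * ZM w M (fun x => (F + f) x + c) + α⁻¹ * ZM w M (fun x => (F - f) x + c)) := by
        refine intervalIntegral.integral_mono_on zero_le_one ((hi F).const_mul 2)
          ((((hi (F + f)).const_mul α).add ((hi (F - f)).const_mul α⁻¹)).const_mul _) fun c _ => ?_
        have h2 := am_ZM hw hM hE (fun x => F x + c) f hα
        have e1 : (fun x => F x + c) + f = fun x => (F + f) x + c := by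
          funext x
          simp only [Pi.add_apply]
          ring
        have e2 : (fun x => F x + c) - f = fun x => (F - f) x + c := by
          funext x
          simp only [Pi.sub_apply]
          ring
        rwa [e1, e2] at h2
      rw [intervalIntegral.integral_const_mul, intervalIntegral.integral_const_mul,
        intervalIntegral.integral_add ((hi (F + f)).const_mul α) ((hi (F - f)).const_mul α⁻¹),
        intervalIntegral.integral_const_mul, intervalIntegral.integral_const_mul] at h1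
      exact h1
  have e : Real.exp (qf M f / 2) ^ 2 = Real.exp (qf M f) := by
    rw [← Real.exp_nat_mul]
    congr 1
    push_cast
    ring
  rwa [e] at h

end cs

/-! ### the torus -/

variable {N : ℕ} [NeZero N] {b t : ℝ} {η : Ed N → ℤ} {q : ℤ × ℤ → ℤ} {Λ : Finset (ℤ × ℤ)}
  {j : Ed N → ℝ}

/-- the exponent of (UB) at `t f = K + dv j` -/
def UE (b t : ℝ) (η : Ed N → ℤ) (j : Ed N → ℝ) (φ f K : Tor N → ℝ) : ℝ :=
  b * ∑ e : Ed N, (Real.cosh (j e) - 1) - ∑ e : Ed N, j e * ((η e : ℝ) + gr φ e) -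
    t / 2 * ∑ x, f x ^ 2 + (∑ x, K x ^ 2) / (2 * t)

lemma dv_neg' (j : Ed N → ℝ) (x : Tor N) : dv (fun e => -j e) x = -dv j x := by
  unfold dv
  ring

lemma UE_neg (η : Ed N → ℤ) (j : Ed N → ℝ) (φ f K : Tor N → ℝ) :
    UE b t η (fun e => -j e) φ (fun x => -f x) (fun x => -K x) + UE b t η j φ f K =
      2 * (b * ∑ e : Ed N, (Real.cosh (j e) - 1)) - t * ∑ x, f x ^ 2 + (∑ x, K x ^ 2) / t := by
  unfold UE
  have e1 : ∑ e : Ed N, -j e * ((η e : ℝ) + gr φ e) = -∑ e : Ed N, j e * ((η e : ℝ) + gr φ e) := by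
    rw [← Finset.sum_neg_distrib]
    exact Finset.sum_congr rfl fun e _ => by ring
  have e2 : ∑ e : Ed N, (Real.cosh (-j e) - 1) = ∑ e : Ed N, (Real.cosh (j e) - 1) :=
    Finset.sum_congr rfl fun e _ => by rw [Real.cosh_neg]
  have e3 : ∑ x : Tor N, (-f x) ^ 2 = ∑ x, f x ^ 2 :=
    Finset.sum_congr rfl fun x _ => by ring
  have e4 : ∑ x : Tor N, (-K x) ^ 2 = ∑ x, K x ^ 2 :=
    Finset.sum_congr rfl fun x _ => by ring
  rw [e1, e2, e3, e4]
  ring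

lemma qf_t (t : ℝ) (f : Tor N → ℝ) :
    qf (t • (1 : Matrix (Tor N) (Tor N) ℝ)) f = t * ∑ x, f x ^ 2 := by
  rw [H37.qf_eq, Matrix.smul_mulVec, Matrix.one_mulVec]
  unfold dotProduct
  rw [Finset.mul_sum]
  exact Finset.sum_congr rfl fun x _ => by rw [Pi.smul_apply, smul_eq_mul]; ring

lemma pr_aux {z z1 z2 z0 C u u' a : ℝ} (hz0 : 0 < z0) (hz1 : 0 < z1) (hC : 0 ≤ C)
    (h1 : z ^ 2 ≤ Real.exp a * (z1 * z2)) (h2 : z2 ≤ C * Real.exp u' * z0) :
    C * Real.exp u * z0 * z ^ 2 ≤ C ^ 2 * Real.exp (u' + u + a) * z0 ^ 2 * z1 := by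
  have h3 : Real.exp a * (z1 * z2) ≤ Real.exp a * (z1 * (C * Real.exp u' * z0)) :=
    mul_le_mul_of_nonneg_left (mul_le_mul_of_nonneg_left h2 hz1.le) (Real.exp_pos _).le
  calc C * Real.exp u * z0 * z ^ 2 ≤ C * Real.exp u * z0 *
        (Real.exp a * (z1 * (C * Real.exp u' * z0))) :=
        mul_le_mul_of_nonneg_left (h1.trans h3)
          (mul_nonneg (mul_nonneg hC (Real.exp_pos _).le) hz0.le)
    _ = _ := by
        rw [Real.exp_add, Real.exp_add]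
        ring

lemma pr_div {C u s z0 z z1 B : ℝ} (h0 : 0 < z0) (hz : 0 < z) (h1 : 0 ≤ z1) (hC : 0 ≤ C)
    (h : C * Real.exp u * z0 * z ^ 2 ≤ C ^ 2 * Real.exp s * z0 ^ 2 * z1) (hB : z0 ≤ Real.exp B * z) :
    C * Real.exp u * z0 ≤ C ^ 2 * Real.exp (2 * B + s) * z1 := by
  have h2 : z0 ^ 2 ≤ Real.exp (2 * B) * z ^ 2 := by
    calc z0 ^ 2 ≤ (Real.exp B * z) ^ 2 := pow_le_pow_left₀ h0.le hB 2
      _ = Real.exp (2 * B) * z ^ 2 := by
        rw [mul_pow, ← Real.exp_nat_mul]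
        push_cast
        ring
  have h3 : C * Real.exp u * z0 * z ^ 2 ≤ C ^ 2 * Real.exp (2 * B + s) * z1 * z ^ 2 := by
    refine h.trans ?_
    calc C ^ 2 * Real.exp s * z0 ^ 2 * z1 ≤ C ^ 2 * Real.exp s * (Real.exp (2 * B) * z ^ 2) * z1 :=
          mul_le_mul_of_nonneg_right (mul_le_mul_of_nonneg_left h2
            (mul_nonneg (sq_nonneg C) (Real.exp_pos _).le)) h1
      _ = _ := by
        rw [Real.exp_add]
        ring
  exact le_of_mul_le_mul_right h3 (by positivity)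

section pr

/-- general constants, integer model -/
theorem prC_ZM (hb : 0 < b) (ht : 0 < t) {C : ℝ} (hC : 0 ≤ C)
    (h : EXB N b η (fun e => -j e) C) (φ f K : Tor N → ℝ) (hf : ∀ x, t * f x = K x + dv j x) :
    C * Real.exp (UE b t η j φ f K) * ZM (wT b N) (t • (1 : Matrix (Tor N) (Tor N) ℝ)) 0 *
        ZM (wTD N b η) (t • (1 : Matrix (Tor N) (Tor N) ℝ)) φ ^ 2 ≤
      C ^ 2 * Real.exp (2 * (b * ∑ e : Ed N, (Real.cosh (j e) - 1)) + (∑ x, K x ^ 2) / t) *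
        ZM (wT b N) (t • (1 : Matrix (Tor N) (Tor N) ℝ)) 0 ^ 2 *
        ZM (wTD N b η) (t • (1 : Matrix (Tor N) (Tor N) ℝ)) (fun x => φ x + f x) := by
  have hM := H963.mf_smul (N := N) ht
  have hem := (gwf_wTD (N := N) hb).disF_wM hM
  have hw : ∀ h, 0 ≤ wTD N b η h := fun h => (H770.wTD_pos hb η h).le
  have h0 : 0 < ZM (wT b N) (t • (1 : Matrix (Tor N) (Tor N) ℝ)) 0 := by
    have := H37.ZM_pos hM.symm (hem.em 0) 0
    rwa [wTD_zero] at this
  have h1 := cs_ZM hw hM.symm (hem.em η) φ f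
  rw [qf_t] at h1
  have h2 := ubC_ZM hb ht h (fun x => φ x + -f x)
  rw [EU_eq ht η (fun e => -j e) φ (fun x => -f x) (fun x => -K x) (fun x => by
    rw [dv_neg']
    linarith [hf x])] at h2
  have e1 : φ - f = fun x => φ x + -f x := by
    funext x
    simp only [Pi.sub_apply]
    ring
  rw [e1] at h1
  have h3 := pr_aux (u := UE b t η j φ f K) h0 (H37.ZM_pos hM.symm (hem.em η) (φ + f)) hC h1 h2
  have e2 := UE_neg (b := b) (t := t) η j φ f K
  have e3 : b * ∑ e : Ed N, (Real.cosh (-j e) - 1) - ∑ e : Ed N, -j e * ((η e : ℝ) + gr φ e) -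
      t / 2 * ∑ x, (-f x) ^ 2 + (∑ x, (-K x) ^ 2) / (2 * t) + UE b t η j φ f K + t * ∑ x, f x ^ 2 =
      2 * (b * ∑ e : Ed N, (Real.cosh (j e) - 1)) + (∑ x, K x ^ 2) / t := by
    have e4 : b * ∑ e : Ed N, (Real.cosh (-j e) - 1) - ∑ e : Ed N, -j e * ((η e : ℝ) + gr φ e) -
      t / 2 * ∑ x, (-f x) ^ 2 + (∑ x, (-K x) ^ 2) / (2 * t) =
      UE b t η (fun e => -j e) φ (fun x => -f x) (fun x => -K x) := rfl
    rw [e4, e2]
    ring
  rw [e3] at h3
  exact h3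

/-- general constants, neutral model -/
theorem prC_Zn (hb : 0 < b) (ht : 0 < t) {C : ℝ} (hC : 0 ≤ C)
    (h : EXB N b η (fun e => -j e) C) (φ f K : Tor N → ℝ) (hf : ∀ x, t * f x = K x + dv j x) :
    C * Real.exp (UE b t η j φ f K) * Zn (wT b N) (t • (1 : Matrix (Tor N) (Tor N) ℝ)) 0 *
        Zn (wTD N b η) (t • (1 : Matrix (Tor N) (Tor N) ℝ)) φ ^ 2 ≤
      C ^ 2 * Real.exp (2 * (b * ∑ e : Ed N, (Real.cosh (j e) - 1)) + (∑ x, K x ^ 2) / t) *
        Zn (wT b N) (t • (1 : Matrix (Tor N) (Tor N) ℝ)) 0 ^ 2 *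
        Zn (wTD N b η) (t • (1 : Matrix (Tor N) (Tor N) ℝ)) (fun x => φ x + f x) := by
  have hM := H963.mf_smul (N := N) ht
  have hem := (gwf_wTD (N := N) hb).disF_wM hM
  have hw : ∀ h, 0 ≤ wTD N b η h := fun h => (H770.wTD_pos hb η h).le
  have hp : ∀ (η : Ed N → ℤ) (G : Tor N → ℝ), 0 < Zn (wTD N b η) (t • (1 : Matrix (Tor N) (Tor N) ℝ)) G :=
    fun η G => (gwf_wTD (N := N) hb).Zn_pos hM η G
  have h0 : 0 < Zn (wT b N) (t • (1 : Matrix (Tor N) (Tor N) ℝ)) 0 := by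
    have := hp 0 0
    rwa [wTD_zero] at this
  have h1 := cs_Zn hw hM.symm (hem.em η) φ f (hp η)
  rw [qf_t] at h1
  have h2 := ubC_Zn hb ht h (fun x => φ x + -f x)
  rw [EU_eq ht η (fun e => -j e) φ (fun x => -f x) (fun x => -K x) (fun x => by
    rw [dv_neg']
    linarith [hf x])] at h2
  have e1 : φ - f = fun x => φ x + -f x := by
    funext x
    simp only [Pi.sub_apply]
    ring
  rw [e1] at h1
  have h3 := pr_aux (u := UE b t η j φ f K) h0 (hp η (φ + f)) hC h1 h2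
  have e2 := UE_neg (b := b) (t := t) η j φ f K
  have e3 : b * ∑ e : Ed N, (Real.cosh (-j e) - 1) - ∑ e : Ed N, -j e * ((η e : ℝ) + gr φ e) -
      t / 2 * ∑ x, (-f x) ^ 2 + (∑ x, (-K x) ^ 2) / (2 * t) + UE b t η j φ f K + t * ∑ x, f x ^ 2 =
      2 * (b * ∑ e : Ed N, (Real.cosh (j e) - 1)) + (∑ x, K x ^ 2) / t := by
    have e4 : b * ∑ e : Ed N, (Real.cosh (-j e) - 1) - ∑ e : Ed N, -j e * ((η e : ℝ) + gr φ e) -
      t / 2 * ∑ x, (-f x) ^ 2 + (∑ x, (-K x) ^ 2) / (2 * t) =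
      UE b t η (fun e => -j e) φ (fun x => -f x) (fun x => -K x) := rfl
    rw [e4, e2]
    ring
  rw [e3] at h3
  exact h3

lemma EXB_neg_EQ (hN : 2 ≤ N) (hb : 0 ≤ b) (hη : ∀ v : Tor N, cuZ η v = q (fcv v))
    (hΛ : InT N Λ) (hj : ∀ e, Tch N Λ e → j e = 0) : EXB N b η (fun e => -j e) (EQ b Λ q) :=
  exb_EQ hN hb hη hΛ fun e he => by rw [hj e he, neg_zero]

/-- **price, integer model** : `UE` is the exponent of `ub_ZM'` -/
theorem pr_ZM (hN : 2 ≤ N) (hb : 0 < b) (ht : 0 < t) (hη : ∀ v : Tor N, cuZ η v = q (fcv v))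
    (hΛ : InT N Λ) (hj : ∀ e, Tch N Λ e → j e = 0) (φ f K : Tor N → ℝ)
    (hf : ∀ x, t * f x = K x + dv j x) {B : ℝ}
    (hB : ZM (wT b N) (t • (1 : Matrix (Tor N) (Tor N) ℝ)) 0 ≤
      Real.exp B * ZM (wTD N b η) (t • (1 : Matrix (Tor N) (Tor N) ℝ)) φ) :
    EQ b Λ q * Real.exp (UE b t η j φ f K) *
        ZM (wT b N) (t • (1 : Matrix (Tor N) (Tor N) ℝ)) 0 ≤
      EQ b Λ q ^ 2 * Real.exp (2 * B + (2 * (b * ∑ e : Ed N, (Real.cosh (j e) - 1)) +
        (∑ x, K x ^ 2) / t)) *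
        ZM (wTD N b η) (t • (1 : Matrix (Tor N) (Tor N) ℝ)) (fun x => φ x + f x) := by
  have h := prC_ZM (η := η) hb ht (H529.Qf.EQ_nonneg hb.le Λ q) (EXB_neg_EQ hN hb.le hη hΛ hj)
    φ f K hf
  have hM := H963.mf_smul (N := N) ht
  have hem := (gwf_wTD (N := N) hb).disF_wM hM
  have z0 : 0 < ZM (wT b N) (t • (1 : Matrix (Tor N) (Tor N) ℝ)) 0 := by
    have := H37.ZM_pos hM.symm (hem.em 0) 0
    rwa [wTD_zero] at this
  have z1 := H37.ZM_pos hM.symm (hem.em η) (φ + f)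
  exact pr_div z0 (H37.ZM_pos hM.symm (hem.em η) φ) z1.le (H529.Qf.EQ_nonneg hb.le Λ q) h hB

/-- **price, neutral model** : `UE` is the exponent of `ub_Zn'` -/
theorem pr_Zn (hN : 2 ≤ N) (hb : 0 < b) (ht : 0 < t) (hη : ∀ v : Tor N, cuZ η v = q (fcv v))
    (hΛ : InT N Λ) (hj : ∀ e, Tch N Λ e → j e = 0) (φ f K : Tor N → ℝ)
    (hf : ∀ x, t * f x = K x + dv j x) {B : ℝ}
    (hB : Zn (wT b N) (t • (1 : Matrix (Tor N) (Tor N) ℝ)) 0 ≤
      Real.exp B * Zn (wTD N b η) (t • (1 : Matrix (Tor N) (Tor N) ℝ)) φ) :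
    EQ b Λ q * Real.exp (UE b t η j φ f K) *
        Zn (wT b N) (t • (1 : Matrix (Tor N) (Tor N) ℝ)) 0 ≤
      EQ b Λ q ^ 2 * Real.exp (2 * B + (2 * (b * ∑ e : Ed N, (Real.cosh (j e) - 1)) +
        (∑ x, K x ^ 2) / t)) *
        Zn (wTD N b η) (t • (1 : Matrix (Tor N) (Tor N) ℝ)) (fun x => φ x + f x) := by
  have h := prC_Zn (η := η) hb ht (H529.Qf.EQ_nonneg hb.le Λ q) (EXB_neg_EQ hN hb.le hη hΛ hj)
    φ f K hf
  have hM := H963.mf_smul (N := N) ht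
  have hp : ∀ (η : Ed N → ℤ) (G : Tor N → ℝ), 0 < Zn (wTD N b η) (t • (1 : Matrix (Tor N) (Tor N) ℝ)) G :=
    fun η G => (gwf_wTD (N := N) hb).Zn_pos hM η G
  have z0 : 0 < Zn (wT b N) (t • (1 : Matrix (Tor N) (Tor N) ℝ)) 0 := by
    have := hp 0 0
    rwa [wTD_zero] at this
  exact pr_div z0 (hp η φ) (hp η _).le (H529.Qf.EQ_nonneg hb.le Λ q) h hB

/-- price without correlation, neutral model, every `η` and `j` -/
theorem pr0_Zn (hN : 2 ≤ N) (hb : 0 < b) (ht : 0 < t) (η : Ed N → ℤ) (j : Ed N → ℝ)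
    (φ f K : Tor N → ℝ) (hf : ∀ x, t * f x = K x + dv j x) {B : ℝ}
    (hB : Zn (wT b N) (t • (1 : Matrix (Tor N) (Tor N) ℝ)) 0 ≤
      Real.exp B * Zn (wTD N b η) (t • (1 : Matrix (Tor N) (Tor N) ℝ)) φ) :
    Real.exp (UE b t η j φ f K) * Zn (wT b N) (t • (1 : Matrix (Tor N) (Tor N) ℝ)) 0 ≤
      Real.exp (2 * B + (2 * (b * ∑ e : Ed N, (Real.cosh (j e) - 1)) + (∑ x, K x ^ 2) / t)) *
        Zn (wTD N b η) (t • (1 : Matrix (Tor N) (Tor N) ℝ)) (fun x => φ x + f x) := by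
  have h := prC_Zn (η := η) (j := j) hb ht zero_le_one (exb_one hN hb.le η fun e => -j e) φ f K hf
  have hM := H963.mf_smul (N := N) ht
  have hp : ∀ (η : Ed N → ℤ) (G : Tor N → ℝ), 0 < Zn (wTD N b η) (t • (1 : Matrix (Tor N) (Tor N) ℝ)) G :=
    fun η G => (gwf_wTD (N := N) hb).Zn_pos hM η G
  have z0 : 0 < Zn (wT b N) (t • (1 : Matrix (Tor N) (Tor N) ℝ)) 0 := by
    have := hp 0 0
    rwa [wTD_zero] at this
  have h2 := pr_div z0 (hp η φ) (hp η _).le zero_le_one h hB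
  rwa [one_mul, one_pow, one_mul] at h2

/-- **lower bound by Cauchy-Schwarz and (UB)**: the partition function at `φ + f` against the one at
`φ` -/
theorem lb_Zn (hN : 2 ≤ N) (hb : 0 < b) (ht : 0 < t) (hη : ∀ v : Tor N, cuZ η v = q (fcv v))
    (hΛ : InT N Λ) (hj : ∀ e, Tch N Λ e → j e = 0) (φ f K : Tor N → ℝ)
    (hf : ∀ x, t * f x = K x + dv j x) :
    Zn (wTD N b η) (t • (1 : Matrix (Tor N) (Tor N) ℝ)) φ ^ 2 ≤
      EQ b Λ q * Real.exp (b * ∑ e : Ed N, (Real.cosh (j e) - 1) +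
        ∑ e : Ed N, j e * ((η e : ℝ) + gr φ e) + t / 2 * ∑ x, f x ^ 2 + (∑ x, K x ^ 2) / (2 * t)) *
      Zn (wT b N) (t • (1 : Matrix (Tor N) (Tor N) ℝ)) 0 *
      Zn (wTD N b η) (t • (1 : Matrix (Tor N) (Tor N) ℝ)) (fun x => φ x + f x) := by
  have hM := H963.mf_smul (N := N) ht
  have hem := (gwf_wTD (N := N) hb).disF_wM hM
  have hw : ∀ h, 0 ≤ wTD N b η h := fun h => (H770.wTD_pos hb η h).le
  have hp : ∀ (G : Tor N → ℝ), 0 < Zn (wTD N b η) (t • (1 : Matrix (Tor N) (Tor N) ℝ)) G :=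
    fun G => (gwf_wTD (N := N) hb).Zn_pos hM η G
  have h1 := cs_Zn hw hM.symm (hem.em η) φ f hp
  rw [qf_t] at h1
  have h2 := ubC_Zn hb ht (EXB_neg_EQ hN hb.le hη hΛ hj) (fun x => φ x + -f x)
  rw [EU_eq ht η (fun e => -j e) φ (fun x => -f x) (fun x => -K x) (fun x => by
    rw [dv_neg']
    linarith [hf x])] at h2
  have e1 : φ - f = fun x => φ x + -f x := by
    funext x
    simp only [Pi.sub_apply]
    ring
  rw [e1] at h1
  have h3 := mul_le_mul_of_nonneg_left (mul_le_mul_of_nonneg_left h2 (hp (φ + f)).le)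
    (Real.exp_pos (t * ∑ x, f x ^ 2)).le
  refine (h1.trans h3).trans (le_of_eq ?_)
  have e2 := UE_neg (b := b) (t := t) η j φ f K
  have e3 : Real.exp (b * ∑ e : Ed N, (Real.cosh (-j e) - 1) - ∑ e : Ed N, -j e * ((η e : ℝ) + gr φ e) -
      t / 2 * ∑ x, (-f x) ^ 2 + (∑ x, (-K x) ^ 2) / (2 * t)) * Real.exp (t * ∑ x, f x ^ 2) =
      Real.exp (b * ∑ e : Ed N, (Real.cosh (j e) - 1) +
        ∑ e : Ed N, j e * ((η e : ℝ) + gr φ e) + t / 2 * ∑ x, f x ^ 2 + (∑ x, K x ^ 2) / (2 * t)) := by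
    rw [← Real.exp_add]
    congr 1
    have e4 : b * ∑ e : Ed N, (Real.cosh (-j e) - 1) - ∑ e : Ed N, -j e * ((η e : ℝ) + gr φ e) -
      t / 2 * ∑ x, (-f x) ^ 2 + (∑ x, (-K x) ^ 2) / (2 * t) =
      UE b t η (fun e => -j e) φ (fun x => -f x) (fun x => -K x) := rfl
    have e5 : UE b t η j φ f K = b * ∑ e : Ed N, (Real.cosh (j e) - 1) -
      ∑ e : Ed N, j e * ((η e : ℝ) + gr φ e) - t / 2 * ∑ x, f x ^ 2 +
      (∑ x, K x ^ 2) / (2 * t) := rfl
    rw [e4]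
    have e6 : (∑ x, K x ^ 2) / t = 2 * ((∑ x, K x ^ 2) / (2 * t)) := by field_simp
    linarith
  rw [← e3]
  have e7 : (fun x => φ x + f x) = φ + f := rfl
  rw [e7]
  ring

end pr

end

end Vale.Agent.P159.H27
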