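import Vale.Agent.P159.H27.Ub1
import Vale.Agent.P159.H856.Dl7
import Vale.Agent.P159.H37.Fp3

/-!
P159 (helper27), prices of far pairs in general position for (UB): `EXB` with the price
`mm b r ^ 2` for every flow `j` which vanishes on the balls of radius `r + 1` around the two cores
(from helper856's `exd_pair0`).
-/

set_option linter.all false

namespace Vale.Agent.P159.H27

open Vale.Agent.P159.TM.SpecC (wT Tor)
open Vale.Agent.P159.H770 (Ed)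
open Vale.Agent.P159.H773 (mm)
open Vale.Agent.P159.H817 (sz)

/-- from helper856's form -/
theorem EXB_of_EXD {N : ℕ} [NeZero N] {b : ℝ} {η : Ed N → ℤ} {S : Finset (Tor N)} {C : ℝ}
    (h : H856.Dl.EXD N b η S C) {j : Ed N → ℝ} (hj : ∀ e, e.1 ∈ S → j e = 0) :
    EXB N b η j C := by
  have h1 := (h j hj).2
  rw [H770.wTD_zero] at h1
  exact h1

/-- **far pair in general position, price `mm b r ^ 2`** -/
theorem exb_far {M : ℕ} {b : ℝ} (hb : 0 < b) {L : ℕ} {p q : Tor (M + 2)} {d : ℤ × ℤ}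
    {η : Ed (M + 2) → ℤ} (h : H817.IsPath p q d.1 d.2 L η) {r : ℕ}
    (h1 : 2 * r + 2 ≤ XY.nm d) (h2 : 4 * XY.nm d ≤ M + 2) {j : Ed (M + 2) → ℝ}
    (hj : ∀ e : Ed (M + 2), sz (e.1 - p) ≤ r + 1 → j e = 0)
    (hj' : ∀ e : Ed (M + 2), sz (e.1 - q) ≤ r + 1 → j e = 0) :
    EXB (M + 2) b η j (mm b r ^ 2) := by
  refine EXB_of_EXD (H856.Dl.exd_pair0 hb.le h (H37.Fp.path_end h) h1 h2) fun e he => ?_
  unfold H856.Dl.cS at he
  rcases (Finset.mem_filter.1 he).2 with h3 | h3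
  · exact hj e h3
  · exact hj' e h3

/-- the same for every torus size `N` -/
theorem exb_far' {N : ℕ} [NeZero N] (hN : 2 ≤ N) {b : ℝ} (hb : 0 < b) {L : ℕ} {p q : Tor N}
    {v1 v2 : ℤ} {η : Ed N → ℤ} (h : H817.IsPath p q v1 v2 L η) {r : ℕ}
    (h1 : 2 * r + 2 ≤ XY.nm (v1, v2)) (h2 : 4 * XY.nm (v1, v2) ≤ N) {j : Ed N → ℝ}
    (hj : ∀ e : Ed N, sz (e.1 - p) ≤ r + 1 → j e = 0)
    (hj' : ∀ e : Ed N, sz (e.1 - q) ≤ r + 1 → j e = 0) :
    EXB N b η j (mm b r ^ 2) := by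
  obtain ⟨M, rfl⟩ : ∃ M, N = M + 2 := ⟨N - 2, by omega⟩
  exact exb_far (d := (v1, v2)) hb h h1 h2 hj hj'

end Vale.Agent.P159.H27
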